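import Vale.Agent.P046.Gap.Thin.Form

/-!
P046, exact order: the adjacency matrix of a set of pairs.
-/

namespace Vale.Agent.P046.Gap

open Finset

variable {V : Type} [DecidableEq V]

/-- The adjacency matrix of a set of pairs. -/
noncomputable def adj (L : Finset (Finset V)) (u w : V) : ℝ :=
  if ({u, w} : Finset V) ∈ L then 1 else 0

theorem adj_symm (L : Finset (Finset V)) (u w : V) : adj L u w = adj L w u := by
  rw [adj, adj, pair_comm]

theorem adj_nonneg (L : Finset (Finset V)) (u w : V) : 0 ≤ adj L u w := by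
  unfold adj; split_ifs <;> norm_num

theorem adj_sq (L : Finset (Finset V)) (u w : V) : adj L u w ^ 2 = adj L u w := by
  unfold adj; split_ifs <;> norm_num

variable [Fintype V]

/-- A sum over adjacent vertices is a sum over the pairs. -/
theorem sum_adj {L : Finset (Finset V)} (hL : ∀ f ∈ L, f.card = 2) (F : V → V → ℝ) :
    ∑ u, ∑ w, adj L u w * F u w = ∑ f ∈ L, ∑ u ∈ f, ∑ w ∈ f.erase u, F u w := by
  have h : ∀ u w, adj L u w = ∑ f ∈ L, if u ∈ f ∧ w ∈ f.erase u then 1 else 0 := by
    intro u w
    have key : ∀ f ∈ L, (u ∈ f ∧ w ∈ f.erase u) ↔ f = {u, w} := by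
      intro f hf
      constructor
      · rintro ⟨hu, hw⟩
        obtain ⟨hne, hw⟩ := mem_erase.1 hw
        refine (eq_of_subset_of_card_le (insert_subset hu (singleton_subset_iff.2 hw)) ?_).symm
        rw [hL f hf, card_pair (Ne.symm hne)]
      · rintro rfl
        have hne : w ≠ u := by
          rintro rfl
          have := hL _ hf
          simp at this
        simp [hne]
    rw [sum_congr rfl fun f hf => if_congr (key f hf) rfl rfl, adj]
    exact (sum_ite_eq' L _ fun _ => (1 : ℝ)).symm
  simp only [h, sum_mul, ite_mul, one_mul, zero_mul]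
  rw [sum_congr rfl fun u _ => sum_comm, sum_comm]
  refine sum_congr rfl fun f _ => ?_
  rw [← sum_subset (subset_univ f) fun u _ hu => sum_eq_zero fun w _ => if_neg fun hc => hu hc.1]
  refine sum_congr rfl fun u hu => ?_
  simp only [hu, true_and]
  rw [sum_ite_mem, univ_inter]

theorem sum_adj_row {L : Finset (Finset V)} (hL : ∀ f ∈ L, f.card = 2) (u : V) :
    ∑ w, adj L u w = ldeg L u := by
  have h := sum_adj hL fun u' _ => if u' = u then (1 : ℝ) else 0
  rw [sum_eq_single u (fun b _ hb => by simp [hb]) (by simp)] at h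
  simp only [if_true, mul_one] at h
  rw [h, ldeg, card_eq_sum_ones, Nat.cast_sum, sum_filter]
  refine sum_congr rfl fun f hf => ?_
  simp only [sum_const, nsmul_eq_mul]
  by_cases hu : u ∈ f
  · rw [if_pos hu, sum_eq_single u (fun b _ hb => by simp [hb]) (absurd hu), if_pos rfl,
      card_erase_of_mem hu, hL f hf]
    norm_num
  · rw [if_neg hu]
    push_cast
    exact sum_eq_zero fun b hb => by rw [if_neg (ne_of_mem_of_not_mem hb hu), mul_zero]

theorem sum_adj_sq {L : Finset (Finset V)} (hL : ∀ f ∈ L, f.card = 2) (w : V) :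
    ∑ u, adj L u w ^ 2 = ldeg L w := by
  rw [← sum_adj_row hL w]
  exact sum_congr rfl fun u _ => by rw [adj_sq, adj_symm]

theorem ldeg_zero {L : Finset (Finset V)} {u : V} (hu : u ∉ lverts L) : ldeg L u = 0 :=
  card_eq_zero.2 <| filter_eq_empty_iff.2 fun _ hf huf => hu (subset_lverts hf huf)

/-- The form of the pairs inside `S`. -/
theorem qL_filter {L : Finset (Finset V)} (hL : ∀ f ∈ L, f.card = 2) (τ : ℝ) (S : Finset V)
    (z : V → ℝ) :
    qL τ (L.filter (· ⊆ S)) z = -(1 / 2 * bil (adj L) (fun u => ind S u * z u)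
        (fun u => ind S u * z u)
      + τ * ∑ u, ind S u * (∑ w, adj L u w * ind S w) * z u ^ 2) := by
  have e1 : bil (adj L) (fun u => ind S u * z u) (fun u => ind S u * z u)
      = ∑ u, ∑ w, adj L u w * ((ind S u * z u) * (ind S w * z w)) := by
    simp only [bil]
    exact sum_congr rfl fun u _ => sum_congr rfl fun w _ => by ring
  have e2 : ∑ u, ind S u * (∑ w, adj L u w * ind S w) * z u ^ 2
      = ∑ u, ∑ w, adj L u w * (ind S u * ind S w * z u ^ 2) := by
    simp only [mul_sum, sum_mul]
    exact sum_congr rfl fun u _ => sum_congr rfl fun w _ => by ring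
  rw [e1, e2, sum_adj hL, sum_adj hL, qL, sum_filter, neg_inj, mul_sum, mul_sum, ← sum_add_distrib]
  refine sum_congr rfl fun f hf => ?_
  obtain ⟨a, b, hab, rfl⟩ := card_eq_two.1 (hL f hf)
  have ea : ({a, b} : Finset V).erase a = {b} := by
    rw [erase_insert (by simpa using hab)]
  have eb : ({a, b} : Finset V).erase b = {a} := by
    rw [pair_comm, erase_insert (by simpa using hab.symm)]
  rw [sum_pair hab, sum_pair hab, ea, eb, sum_singleton, sum_singleton, sum_singleton,
    sum_singleton, sq_sum_pair hab rfl]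
  by_cases ha : a ∈ S <;> by_cases hb : b ∈ S <;>
    simp [ind, ha, hb, insert_subset_iff] <;> ring

end Vale.Agent.P046.Gap
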