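import Vale.Agent.P046.Gap.Thin.Saddle
import Vale.Agent.P046.Gap.Thin.Link

/-!
P046, exact order: thinning the vertices of a link.
-/

namespace Vale.Agent.P046.Gap

open Finset

variable {V : Type} [DecidableEq V]

/-- The mean square of a centred linear sum over a random subset. -/
theorem ex_sq (r : ℝ) (U : Finset V) (c : V → ℝ) :
    ex r U (fun S => (∑ u ∈ U, (ind S u - r) * c u) ^ 2) = r * (1 - r) * ∑ u ∈ U, c u ^ 2 := by
  suffices h : ∀ k, ex r U (fun S => (k + ∑ u ∈ U, (ind S u - r) * c u) ^ 2)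
      = k ^ 2 + r * (1 - r) * ∑ u ∈ U, c u ^ 2 by simpa using h 0
  induction U using Finset.induction_on with
  | empty => intro k; simp
  | insert x s hx ih =>
    intro k
    rw [ex_insert _ hx,
      ex_congr (g := fun S => ((k - r * c x) + ∑ i ∈ s, (ind S i - r) * c i) ^ 2) s fun S hS => ?_,
      ex_congr (f := fun S => (k + ∑ i ∈ insert x s, (ind (insert x S) i - r) * c i) ^ 2)
        (g := fun S => ((k + (1 - r) * c x) + ∑ i ∈ s, (ind S i - r) * c i) ^ 2) s fun S _ => ?_,
      ih, ih, sum_insert hx]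
    · ring
    · rw [sum_insert_coeff hx (fun B i => ind B i - r) (fun B i h => by rw [ind_insert_ne B h]),
        ind, if_pos (mem_insert_self x S)]
      ring
    · rw [sum_insert hx, ind, if_neg fun h => hx (hS h)]
      ring

/-- The bounded scalars. -/
abbrev Slot : Type := {t : ℝ // |t| ≤ 4}

instance : Nonempty Slot := ⟨⟨0, by norm_num⟩⟩

/-- The value of one linearised coordinate. -/
noncomputable def coord (c g : ℝ) : ℝ := ⨆ t : Slot, g * t.1 - c * t.1 ^ 2

theorem coord_bd (c g : ℝ) : IsBd fun t : Slot => g * t.1 - c * t.1 ^ 2 :=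
  ⟨|g| * 4 + |c| * 16, fun t => by
    refine (abs_sub _ _).trans (add_le_add ?_ ?_)
    · rw [abs_mul]; exact mul_le_mul_of_nonneg_left t.2 (abs_nonneg g)
    · rw [abs_mul, abs_of_nonneg (sq_nonneg t.1), ← sq_abs t.1]
      exact mul_le_mul_of_nonneg_left (by nlinarith [t.2, abs_nonneg t.1]) (abs_nonneg c)⟩

theorem coord_ge (c g : ℝ) {t : ℝ} (ht : |t| ≤ 4) : g * t - c * t ^ 2 ≤ coord c g :=
  (coord_bd c g).le_sup ⟨t, ht⟩

theorem coord_lip (c g g' : ℝ) : |coord c g - coord c g'| ≤ 4 * |g - g'| := by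
  have h : ∀ g g' : ℝ, coord c g ≤ coord c g' + 4 * |g - g'| := fun g g' => by
    refine ciSup_le fun t => ?_
    have h1 := coord_ge c g' t.2
    have h2 : (g - g') * t.1 ≤ |g - g'| * 4 :=
      (le_abs_self _).trans (by rw [abs_mul]; exact mul_le_mul_of_nonneg_left t.2 (abs_nonneg _))
    linarith
  rw [abs_le]
  constructor <;> linarith [h g g', h g' g, abs_sub_comm g g']

/-- The loss of one vertex from a low thinned degree. -/
theorem deficit_bound {τ a r d D' z : ℝ} (hτ0 : 0 ≤ τ) (hτ : τ ≤ 1 / 4) (ha : 0 < a) (hr : 0 < r)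
    (hd : 0 < d) (hz : |z| ≤ 4) :
    τ * D' * z ^ 2 - a * r * d * z ^ 2 ≤ D' ^ 2 / (4 * (a * r * d)) := by
  have hb : 0 < a * r * d := by positivity
  have hz2 : z ^ 2 ≤ 16 := by rw [← sq_abs]; nlinarith [abs_nonneg z]
  rcases le_or_gt (τ * D') (a * r * d) with h | h
  · refine le_trans ?_ (by positivity)
    nlinarith [mul_le_mul_of_nonneg_right h (sq_nonneg z)]
  · calc τ * D' * z ^ 2 - a * r * d * z ^ 2 = (τ * D' - a * r * d) * z ^ 2 := by ring
      _ ≤ (τ * D' - a * r * d) * 16 := mul_le_mul_of_nonneg_left hz2 (by linarith)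
      _ ≤ D' ^ 2 / (4 * (a * r * d)) := by
        rw [le_div_iff₀ (by positivity)]
        have h1 : (τ * D') ^ 2 ≤ D' ^ 2 / 16 := by
          rw [mul_pow]
          have : τ ^ 2 ≤ 1 / 16 := by nlinarith
          nlinarith [sq_nonneg D', mul_le_mul_of_nonneg_right this (sq_nonneg D')]
        nlinarith [sq_nonneg (τ * D' - 2 * (a * r * d))]

variable [Fintype V]

/-- **The vertex stage.** -/
theorem stars_bound {L : Finset (Finset V)} (hL : ∀ f ∈ L, f.card = 2) {τ a r : ℝ} (ha : 0 < a)
    (hτ0 : 4 * a ≤ τ) (hτ : τ ≤ 1 / 4) (hr : 0 < r) (hr1 : r ≤ 1) :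
    ex r (lverts L) (fun S => psiL τ (L.filter (· ⊆ S)))
      ≤ r ^ 2 * psiL (τ - 4 * a) L + 257 * (lverts L).card / a := by
  obtain ⟨P, N, hPs, hNs, hP0, hN0, hPN, hPc, hNc⟩ := exists_split (adj L) (adj_symm L)
  set U := lverts L with hUdef
  set d : V → ℝ := fun u => ldeg L u with hd
  have hd0 : ∀ u, 0 ≤ d u := fun u => Nat.cast_nonneg _
  have hd1 : ∀ u ∈ U, 1 ≤ d u := fun u hu => by
    simp only [hd]; exact_mod_cast ldeg_pos hu
  simp only [sum_adj_sq hL] at hPc hNc
  have hzero : ∀ {K : V → V → ℝ}, (∀ w, ∑ u, K u w ^ 2 ≤ d w) → (∀ u w, K u w = K w u) →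
      ∀ u, u ∉ U → ∀ w, K u w = 0 := fun {K} hK hs u hu w => by
    have h := hK u
    rw [show d u = 0 by simp [hd, ldeg_zero hu]] at h
    have := single_le_sum (f := fun x => K x u ^ 2) (fun x _ => sq_nonneg _) (mem_univ w)
    rw [hs]
    exact pow_eq_zero_iff two_ne_zero |>.1 (le_antisymm (this.trans h) (sq_nonneg _))
  set c : V → ℝ := fun u => r * (τ - 2 * a) * d u with hc
  let Θ := box V × box V
  let h : V → Θ → ℝ := fun u θ => coord (c u) (grad P N θ.1.1 θ.2.1 u)
  let G : Θ → ℝ := fun θ =>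
    -(r * a * ∑ w ∈ U, d w * θ.1.1 w ^ 2) + -(a * ∑ w ∈ U, d w * θ.2.1 w ^ 2)
  have hbx : ∀ (θ : Θ) u, |θ.1.1 u| ≤ 4 := fun θ u => abs_le_of_mem θ.1.2 u
  have hby : ∀ (θ : Θ) u, |θ.2.1 u| ≤ 4 := fun θ u => abs_le_of_mem θ.2.2 u
  have hgrad : ∀ u, IsBd fun θ : Θ => grad P N θ.1.1 θ.2.1 u := fun u => by
    have h1 : IsBd fun θ : Θ => ∑ w, P u w * θ.1.1 w :=
      isBd_sum fun w _ => IsBd.mul_left ⟨4, fun θ => hbx θ w⟩ _
    have h2 : IsBd fun θ : Θ => ∑ w, N u w * θ.2.1 w :=
      isBd_sum fun w _ => IsBd.mul_left ⟨4, fun θ => hby θ w⟩ _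
    simpa [grad, sub_eq_add_neg] using h1.add (h2.mul_left (-1))
  have hh : ∀ u, IsBd (h u) := fun u => by
    obtain ⟨C, hC⟩ := hgrad u
    refine ⟨|coord (c u) 0| + 4 * C, fun θ => ?_⟩
    have h1 := coord_lip (c u) (grad P N θ.1.1 θ.2.1 u) 0
    rw [sub_zero] at h1
    have := hC θ
    have := abs_sub_abs_le_abs_sub (h u θ) (coord (c u) 0)
    simp only [h] at *
    linarith
  have hsq : ∀ {f : Θ → ℝ}, (∀ θ, |f θ| ≤ 4) → IsBd fun θ => f θ ^ 2 := fun {f} hf => ⟨16,
    fun θ => by
      show |f θ ^ 2| ≤ 16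
      rw [abs_of_nonneg (sq_nonneg _), ← sq_abs]
      nlinarith [hf θ, abs_nonneg (f θ)]⟩
  have hG : IsBd G := by
    have h1 := (isBd_sum (s := U) fun w _ => (hsq (f := fun θ : Θ => θ.1.1 w)
      (fun θ => hbx θ w)).mul_left (d w)).mul_left (-(r * a))
    have h2 := (isBd_sum (s := U) fun w _ => (hsq (f := fun θ : Θ => θ.2.1 w)
      (fun θ => hby θ w)).mul_left (d w)).mul_left (-a)
    simpa [G, neg_mul] using h1.add h2
  let dS : Finset V → V → ℝ := fun S u => ∑ w, adj L u w * ind S w
  let E1 : Finset V → ℝ := fun S => ∑ u ∈ U, (r * d u - dS S u) ^ 2 / (4 * (a * r * d u))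
  -- one outcome
  have h1 : ∀ S ⊆ U, psiL τ (L.filter (· ⊆ S))
      ≤ r ^ 2 * psiL (τ - 4 * a) L + E1 S + ⨆ θ, (∑ u ∈ U, (ind S u - r) * h u θ) + G θ := by
    intro S hS
    obtain ⟨z, hzb, e⟩ := psiL_mem τ (L.filter (· ⊆ S))
    rw [e, qL_filter hL]
    set x : V → ℝ := fun u => ind S u * z u with hx
    have hi : ∀ u, ind S u ^ 2 = ind S u := fun u => by simp only [ind]; split_ifs <;> norm_num
    have hxb : x ∈ box V := box_iff.2 fun u => by
      simp only [hx, ind]
      split_ifs
      · simpa using abs_le_of_mem hzb u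
      · norm_num
    have hxo : ∀ u, u ∉ U → x u = 0 := fun u hu => by
      simp [hx, ind, show u ∉ S from fun h => hu (hS h)]
    have hcont : Continuous (surr P N r (τ - 2 * a) d U x) := by
      unfold surr bil; fun_prop
    obtain ⟨zb, hzbb, hmax⟩ := isCompact_Icc.exists_isMaxOn
      (s := box V) ⟨0, box_iff.2 fun _ => by simp⟩ hcont.continuousOn
    set b : V → ℝ := fun u => r * zb u with hb
    have hbb : b ∈ box V := box_iff.2 fun u => by
      rw [hb, abs_mul, abs_of_pos hr]
      exact (mul_le_of_le_one_left (abs_nonneg _) hr1).trans (abs_le_of_mem hzbb u)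
    let θ : Θ := (⟨x, hxb⟩, ⟨b, hbb⟩)
    have hsup := (isBd_signed (fun u => ind S u - r) (fun u (_ : u ∈ U) => hh u) hG).le_sup θ
    -- the choices that realise the coordinates
    have hch : ∀ u, ∃ t : ℝ, |t| ≤ 4 ∧
        coord (c u) (grad P N x b u) = grad P N x b u * t - c u * t ^ 2 := by
      intro u
      obtain ⟨t, ht, hm⟩ := isCompact_Icc.exists_isMaxOn
        (s := Set.Icc (-4 : ℝ) 4) ⟨0, by norm_num⟩
        (f := fun t => grad P N x b u * t - c u * t ^ 2) (by fun_prop)
      have ht' : |t| ≤ 4 := abs_le.2 ht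
      exact ⟨t, ht', le_antisymm (ciSup_le fun s => hm (abs_le.1 s.2)) (coord_ge _ _ ht')⟩
    choose v hv hve using hch
    have hsad := surr_saddle hNs (d := d) (U := U) (P := P) (x := x) (r := r)
      (show 0 ≤ τ - 2 * a by linarith) hd0 hzbb hmax v hv
    have hg0 : ∀ u ∈ univ \ U, grad P N x (fun w => r * zb w) u = 0 := fun u hu => by
      have hu' := (mem_sdiff.1 hu).2
      simp [grad, hzero hPc hPs u hu', hzero hNc hNs u hu']
    rw [sum_eq_zero (s := univ \ U) fun u hu => by rw [hg0 u hu, zero_mul], mul_zero, add_zero,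
      ← hb, sum_congr rfl (g := fun u => h u θ) fun u _ => (hve u).symm] at hsad
    -- (i) the diagonal
    have hdiag : -(τ * ∑ u, ind S u * dS S u * z u ^ 2)
        ≤ E1 S - r * (τ - a) * ∑ u ∈ U, d u * x u ^ 2 := by
      rw [← sum_subset (subset_univ U) fun u _ hu => by
        simp [ind, show u ∉ S from fun h => hu (hS h)]]
      simp only [E1, mul_sum, ← sum_neg_distrib, ← sum_sub_distrib]
      refine sum_le_sum fun u hu => ?_
      have hk := deficit_bound (D' := r * d u - dS S u) (by linarith : 0 ≤ τ) hτ ha hr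
        (show 0 < d u by linarith [hd1 u hu]) (abs_le_of_mem hxb u)
      have : x u ^ 2 = ind S u * z u ^ 2 := by rw [hx, mul_pow, hi]
      rw [this] at hk ⊢
      linarith
    -- (ii), (iii)
    have hM : bil (adj L) x x = bil N x x - bil P x x := by
      simp only [bil, ← sum_sub_distrib]
      exact sum_congr rfl fun u _ => sum_congr rfl fun w _ => by rw [← hPN]; ring
    have hNt := bil_tangent hNs hN0 x b
    have hlin : bil P x x - bil N x b - r * (τ - 2 * a) * ∑ u ∈ U, d u * x u ^ 2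
        ≤ ∑ u ∈ U, ind S u * h u θ := by
      have e' : bil P x x - bil N x b = ∑ u ∈ U, x u * grad P N x b u := by
        rw [bil_eq_sum, bil_eq_sum, ← sum_sub_distrib,
          ← sum_subset (subset_univ U) fun u _ hu => by simp [hxo u hu]]
        exact sum_congr rfl fun u _ => by simp only [grad]; ring
      rw [e', mul_sum, ← sum_sub_distrib]
      refine sum_le_sum fun u _ => ?_
      simp only [hx, mul_pow, hi]
      have := mul_le_mul_of_nonneg_left (coord_ge (c u) (grad P N x b u) (abs_le_of_mem hzb u))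
        (show 0 ≤ ind S u by simp only [ind]; split_ifs <;> norm_num)
      simp only [h, θ, hc] at this ⊢
      linarith
    -- the mean
    have hq : surr P N r (τ - 2 * a) d U x zb - 1 / 2 * bil P x x
        + a * ∑ u ∈ U, d u * b u ^ 2 ≤ r ^ 2 * qL (τ - 3 * a) L zb := by
      have hP' := hP0 fun u => x u + (-r) * zb u
      rw [bil_comb hPs, bil_comm hPs x zb] at hP'
      have hq' : qL (τ - 3 * a) L zb
          = 1 / 2 * bil P zb zb - 1 / 2 * bil N zb zb
            - (τ - 3 * a) * ∑ u ∈ U, d u * zb u ^ 2 := by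
        have hf : L.filter (· ⊆ (univ : Finset V)) = L := by simp
        rw [← hf, qL_filter hL, show (fun u => ind (univ : Finset V) u * zb u) = zb from
          funext fun u => by simp [ind]]
        simp only [ind, mem_univ, if_true, mul_one, one_mul, sum_adj_row hL]
        rw [← sum_subset (subset_univ U) fun u _ hu => by simp [ldeg_zero hu]]
        have : bil (adj L) zb zb = bil N zb zb - bil P zb zb := by
          simp only [bil, ← sum_sub_distrib]
          exact sum_congr rfl fun u _ => sum_congr rfl fun w _ => by rw [← hPN]; ring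
        rw [this]; ring
      have e2 : ∑ u ∈ U, d u * b u ^ 2 = r ^ 2 * ∑ u ∈ U, d u * zb u ^ 2 := by
        rw [mul_sum]; exact sum_congr rfl fun u _ => by rw [hb]; ring
      rw [hq', e2]
      simp only [surr]
      linarith
    have hqle := mul_le_mul_of_nonneg_left
      ((qL_le_psiL (τ - 3 * a) L hzbb).trans
        (psiL_anti (show τ - 4 * a ≤ τ - 3 * a by linarith) L)) (sq_nonneg r)
    have hsum : ∑ u ∈ U, ind S u * h u θ
        = (∑ u ∈ U, (ind S u - r) * h u θ) + r * ∑ u ∈ U, h u θ := by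
      simp only [sub_mul, sum_sub_distrib, ← mul_sum]; ring
    have hGθ : G θ = -(r * a * ∑ u ∈ U, d u * x u ^ 2) + -(a * ∑ u ∈ U, d u * b u ^ 2) := rfl
    rw [hM]
    linarith
  refine (ex_mono _ hr.le hr1 h1).trans ?_
  rw [ex_add, ex_add, ex_const, add_assoc]
  refine add_le_add le_rfl ?_
  -- the deficit
  have hE1 : ex r U E1 ≤ (U.card : ℝ) / a := by
    simp only [E1, ex_sum, div_eq_mul_inv, ex_mul_right]
    rw [← nsmul_eq_mul, ← sum_const]
    refine sum_le_sum fun u hu => ?_
    have hdS : ∀ S : Finset V, S ⊆ U → (r * d u - dS S u) ^ 2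
        = (∑ w ∈ U, (ind S w - r) * adj L u w) ^ 2 := fun S hS => by
      have e1 : ∑ w, adj L u w * ind S w = ∑ w ∈ U, adj L u w * ind S w :=
        (sum_subset (subset_univ U) fun w _ hw => by
          simp [ind, show w ∉ S from fun h => hw (hS h)]).symm
      have e2 : d u = ∑ w ∈ U, adj L u w := by
        rw [sum_subset (subset_univ U) fun w _ hw => ?_, sum_adj_row hL]
        simp only [adj]
        exact if_neg fun hm => hw (subset_lverts hm (by simp))
      simp only [dS, sub_mul, sum_sub_distrib, ← mul_sum]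
      rw [e1, e2, sum_congr rfl fun w _ => mul_comm (ind S w) _]
      ring
    rw [ex_congr U fun S hS => hdS S hS, ex_sq]
    have hdu : 0 < d u := by linarith [hd1 u hu]
    have : ∑ w ∈ U, adj L u w ^ 2 ≤ d u := by
      simp only [adj_sq]
      exact (sum_le_univ_sum_of_nonneg fun w => adj_nonneg L u w).trans (sum_adj_row hL u).le
    refine (mul_le_mul_of_nonneg_right (mul_le_mul_of_nonneg_left this
      (mul_nonneg hr.le (by linarith))) (by positivity)).trans ?_
    rw [show r * (1 - r) * d u * (4 * (a * r * d u))⁻¹ = (1 - r) / 4 * a⁻¹ by field_simp]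
    exact mul_le_of_le_one_left (by positivity) (by linarith)
  -- the fluctuation
  have hfl : ex r U (fun S => ⨆ θ, (∑ u ∈ U, (ind S u - r) * h u θ) + G θ)
      ≤ 256 * (U.card : ℝ) / a := by
    refine (symm_sup hr.le hr1 U h G (fun u _ => hh u) hG).trans ?_
    let R : Finset V → Finset V → (V → V → ℝ) → V → ℝ := fun B S K w =>
      8 * ∑ u ∈ U, sgn S u * (ind B u * K u w)
    have h2 : ∀ B, radSup U (fun u θ => ind B u * h u θ) (fun θ => G θ / 2)
        ≤ ex (1 / 2) U fun S => (∑ w ∈ U, R B S P w ^ 2 / (2 * (r * a * d w)))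
          + ∑ w ∈ U, R B S N w ^ 2 / (2 * (a * d w)) := by
      intro B
      refine (contract_sup (by norm_num : (0 : ℝ) ≤ 4) U _
        (fun u θ => ind B u * grad P N θ.1.1 θ.2.1 u) (fun _ _ => 0) _
        (by simpa only [div_eq_inv_mul] using hG.mul_left _)
        (fun u _ => (hgrad u).mul_left _) (fun _ _ => ⟨0, fun _ => by simp⟩)
        fun u _ θ θ' => ?_).trans ?_
      · simp only [ind, sub_zero, abs_zero, add_zero, sub_self]
        split_ifs
        · simpa only [one_mul] using coord_lip (c u) _ _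
        · simp
      refine ex_mono _ (by norm_num) (by norm_num) fun S _ => ?_
      simp only [radSup, mul_zero, sum_const_zero, zero_add, ex_const]
      refine ciSup_le fun θ => ?_
      have hout : ∀ {K : V → V → ℝ}, (∀ w, ∑ u, K u w ^ 2 ≤ d w) → (∀ u w, K u w = K w u) →
          ∀ y : V → ℝ, ∑ u ∈ U, sgn S u * (2 * 4 * (ind B u * ∑ w, K u w * y w))
            = ∑ w ∈ U, R B S K w * y w := fun {K} hK hs y => by
        simp only [R, mul_sum, sum_mul]
        rw [sum_comm, ← sum_subset (subset_univ U) fun w _ hw => sum_eq_zero fun u _ => by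
          rw [hs u w, hzero hK hs w hw u]; ring]
        exact sum_congr rfl fun w _ => sum_congr rfl fun u _ => by ring
      have e : ∑ u ∈ U, sgn S u * (2 * 4 * (ind B u * grad P N θ.1.1 θ.2.1 u))
          = (∑ w ∈ U, R B S P w * θ.1.1 w) - ∑ w ∈ U, R B S N w * θ.2.1 w := by
        rw [← hout hPc hPs, ← hout hNc hNs, ← sum_sub_distrib]
        exact sum_congr rfl fun u _ => by simp only [grad]; ring
      rw [e]
      have l1 := lin_quad U (R B S P) (fun w => r * a * d w / 2) θ.1.1 fun w hw => by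
        have := hd1 w hw; positivity
      have l2 := lin_quad U (fun w => -R B S N w) (fun w => a * d w / 2) θ.2.1 fun w hw => by
        have := hd1 w hw; positivity
      simp only [neg_sq, neg_mul, sum_sub_distrib, sum_neg_distrib,
        show ∀ k : ℝ, 4 * (k / 2) = 2 * k from fun k => by ring, div_mul_eq_mul_div,
        ← sum_div] at l1 l2
      simp only [G]
      simp only [mul_sum] at *
      simp only [mul_assoc] at *
      linarith
    have h3 : ∀ (K : V → V → ℝ), (∀ w, ∑ u, K u w ^ 2 ≤ d w) → ∀ w,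
        ex r U (fun B => ex (1 / 2) U fun S => R B S K w ^ 2) ≤ 64 * (r * d w) := by
      intro K hK w
      simp only [R, mul_pow, ex_mul_left, rad_sq]
      rw [ex_sum, show (8 : ℝ) ^ 2 = 64 by norm_num]
      refine mul_le_mul_of_nonneg_left ?_ (by norm_num)
      refine le_trans (le_of_eq (sum_congr rfl (g := fun u => r * K u w ^ 2) fun u hu => ?_)) ?_
      · rw [ex_mul_right]
        congr 1
        have hi := ex_contains r (singleton_subset_iff.2 hu)
        simpa [ind, ite_pow] using hi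
      · rw [← mul_sum]
        exact mul_le_mul_of_nonneg_left
          ((sum_le_univ_sum_of_nonneg fun u => sq_nonneg _).trans (hK w)) hr.le
    refine (mul_le_mul_of_nonneg_left (ex_mono _ hr.le hr1 fun B _ => h2 B) two_pos.le).trans ?_
    simp only [ex_add, ex_sum, div_eq_mul_inv, ex_mul_right]
    have hb1 : ∀ w ∈ U, ex r U (fun B => ex (1 / 2) U fun S => R B S P w ^ 2)
        * (2 * (r * a * d w))⁻¹ ≤ 64 * a⁻¹ := fun w hw => by
      have := hd1 w hw
      refine (mul_le_mul_of_nonneg_right (h3 P hPc w) (by positivity)).trans ?_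
      rw [show 64 * (r * d w) * (2 * (r * a * d w))⁻¹ = 32 * a⁻¹ by field_simp; ring]
      exact mul_le_mul_of_nonneg_right (by norm_num) (by positivity)
    have hb2 : ∀ w ∈ U, ex r U (fun B => ex (1 / 2) U fun S => R B S N w ^ 2)
        * (2 * (a * d w))⁻¹ ≤ 64 * a⁻¹ := fun w hw => by
      have := hd1 w hw
      refine (mul_le_mul_of_nonneg_right (h3 N hNc w) (by positivity)).trans ?_
      rw [show 64 * (r * d w) * (2 * (a * d w))⁻¹ = 32 * r * a⁻¹ by field_simp; ring]
      exact mul_le_mul_of_nonneg_right (by linarith) (by positivity)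
    have s1 := sum_le_card_nsmul U _ _ hb1
    have s2 := sum_le_card_nsmul U _ _ hb2
    rw [nsmul_eq_mul] at s1 s2
    rw [show 256 * (U.card : ℝ) * a⁻¹ = 2 * ((U.card : ℝ) * (64 * a⁻¹) + (U.card : ℝ) * (64 * a⁻¹))
      by ring]
    linarith
  calc ex r U E1 + ex r U (fun S => ⨆ θ, (∑ u ∈ U, (ind S u - r) * h u θ) + G θ)
      ≤ (U.card : ℝ) / a + 256 * (U.card : ℝ) / a := add_le_add hE1 hfl
    _ = _ := by ring

end Vale.Agent.P046.Gap
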