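import Vale.Agent.P046.Gap.Thin.Entries
import Vale.Agent.P046.Gap.Thin.Stars

/-!
P046, exact order: thinning contracts the defect of the link forms.
-/

namespace Vale.Agent.P046.Gap

open Finset

variable {V : Type} [DecidableEq V]

theorem ex_image {α β : Type} [DecidableEq α] [DecidableEq β] (r : ℝ) {U : Finset α} {g : α → β}
    (hg : Set.InjOn g U) (F : Finset β → ℝ) :
    ex r (U.image g) F = ex r U (fun S => F (S.image g)) := by
  induction U using Finset.induction_on generalizing F with
  | empty => simp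
  | insert a U ha ih =>
    have hU : Set.InjOn g U := hg.mono (by simp)
    have hga : g a ∉ U.image g := fun h => by
      obtain ⟨b, hb, e⟩ := mem_image.1 h
      exact ha (hg (by simp [hb]) (by simp) e ▸ hb)
    rw [image_insert, ex_insert r hga, ex_insert r ha, ih hU, ih hU]
    simp only [image_insert]

variable [Fintype V]

/-- The pairs opposite a vertex in its triangles. -/
def linkPairs (A : Finset (Finset V)) (v : V) : Finset (Finset V) :=
  (triAt A v).image fun s => s.erase v

theorem qAt_eq (τ : ℝ) (A : Finset (Finset V)) (v : V) (z : V → ℝ) :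
    qAt τ A v z = qL τ (linkPairs A v) z := by
  rw [qAt, qL, linkPairs, sum_image]
  · rfl
  · intro s hs t ht e
    have hs' := (mem_filter.1 hs).2
    have ht' := (mem_filter.1 ht).2
    rw [← insert_erase hs', ← insert_erase ht']
    exact congrArg (insert v) e

theorem psiAt_eq (τ : ℝ) (A : Finset (Finset V)) (v : V) :
    psiAt τ A v = psiL τ (linkPairs A v) := by
  refine le_antisymm ?_ ?_
  · rw [psiAt, qAt_eq]; exact qL_le_psiL _ _ (zOpt_mem τ A v)
  · obtain ⟨z, hz, e⟩ := psiL_mem τ (linkPairs A v)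
    rw [e, ← qAt_eq]; exact qAt_le_psiAt τ A v hz

theorem linkPairs_card {A : Finset (Finset V)} {v : V} {f : Finset V} (hf : f ∈ linkPairs A v) :
    f.card = 2 := by
  obtain ⟨s, hs, rfl⟩ := mem_image.1 hf
  rw [card_erase_of_mem (mem_filter.1 hs).2, tri_card (mem_filter.1 hs).1]

theorem linkPairs_mem {A : Finset (Finset V)} {v : V} {f : Finset V} :
    f ∈ linkPairs A v ↔ f.card = 2 ∧ v ∉ f ∧ f ∈ A ∧ ∀ u ∈ f, ({v, u} : Finset V) ∈ A := by
  constructor
  · intro hf
    have hc := linkPairs_card hf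
    obtain ⟨s, hs, rfl⟩ := mem_image.1 hf
    obtain ⟨hsA, hv⟩ := mem_filter.1 hs
    refine ⟨hc, by simp, tri_sub hsA (mem_powersetCard.2 ⟨erase_subset _ _, hc⟩), fun u hu => ?_⟩
    obtain ⟨hne, hus⟩ := mem_erase.1 hu
    exact tri_sub hsA (mem_powersetCard.2
      ⟨insert_subset hv (singleton_subset_iff.2 hus), card_pair (Ne.symm hne)⟩)
  · rintro ⟨hc, hv, hfA, hst⟩
    refine mem_image.2 ⟨insert v f, mem_filter.2 ⟨mem_filter.2 ⟨?_, ?_⟩, mem_insert_self v f⟩,
      erase_insert hv⟩
    · exact mem_powersetCard.2 ⟨subset_univ _, by rw [card_insert_of_notMem hv, hc]⟩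
    · intro e he
      obtain ⟨hsub, he2⟩ := mem_powersetCard.1 he
      by_cases hve : v ∈ e
      · obtain ⟨a, b, hab, rfl⟩ := card_eq_two.1 he2
        rcases mem_insert.1 hve with rfl | h
        · exact hst b ((mem_insert.1 (hsub (by simp))).resolve_left (Ne.symm hab))
        · rw [mem_singleton] at h
          subst h
          rw [pair_comm]
          exact hst a ((mem_insert.1 (hsub (by simp))).resolve_left hab)
      · have : e ⊆ f := fun x hx => (mem_insert.1 (hsub hx)).resolve_left fun h => hve (h ▸ hx)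
        rw [eq_of_subset_of_card_le this (by omega)]
        exact hfA

/-- The thinning bound at one vertex. -/
theorem link_bound (A : Finset (Finset V)) (v : V) {τ δ r : ℝ} (hδ : 0 < δ) (hδτ : δ ≤ τ)
    (hτ : τ ≤ 1 / 4) (hr : 0 < r) (hr1 : r ≤ 1) :
    ex r A (fun B => psiAt τ B v)
      ≤ r ^ 3 * psiAt (τ - δ) A v + 3000 * r * (lverts (linkPairs A v)).card / δ := by
  set L := linkPairs A v with hL
  set U := lverts L with hU
  let st : V → Finset V := fun u => {v, u}
  have hLA : L ⊆ A := fun f hf => (linkPairs_mem.1 hf).2.2.1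
  have hUv : ∀ u ∈ U, u ≠ v ∧ st u ∈ A := fun u hu => by
    obtain ⟨f, hf, huf⟩ := mem_biUnion.1 hu
    obtain ⟨-, hv, -, hst⟩ := linkPairs_mem.1 hf
    exact ⟨fun h => hv (h ▸ huf), hst u huf⟩
  have hinj : Set.InjOn st U := fun u hu w _ e => by
    have h : u ∈ ({v, w} : Finset V) := by
      rw [← show ({v, u} : Finset V) = {v, w} from e]; simp
    simpa [(hUv u (mem_coe.1 hu)).1] using h
  have hdis : Disjoint (U.image st) L := disjoint_left.2 fun e he hel => by
    obtain ⟨u, -, rfl⟩ := mem_image.1 he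
    exact (linkPairs_mem.1 hel).2.1 (by simp [st])
  have hsub : U.image st ∪ L ⊆ A := union_subset
    (image_subset_iff.2 fun u hu => (hUv u hu).2) hLA
  have hC : ∀ f ∈ L, f.card = 2 := fun f hf => linkPairs_card hf
  have key : ∀ B ⊆ A, linkPairs B v = linkPairs (B ∩ (U.image st ∪ L)) v := by
    intro B hB
    ext f
    simp only [linkPairs_mem]
    constructor
    · rintro ⟨h1, h2, h3, h4⟩
      have hfL : f ∈ L := linkPairs_mem.2 ⟨h1, h2, hB h3, fun u hu => hB (h4 u hu)⟩
      exact ⟨h1, h2, mem_inter.2 ⟨h3, mem_union_right _ hfL⟩, fun u hu =>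
        mem_inter.2 ⟨h4 u hu, mem_union_left _ (mem_image_of_mem st (subset_lverts hfL hu))⟩⟩
    · rintro ⟨h1, h2, h3, h4⟩
      exact ⟨h1, h2, (mem_inter.1 h3).1, fun u hu => (mem_inter.1 (h4 u hu)).1⟩
  rw [ex_congr (g := fun B => (fun C => psiL τ (linkPairs C v)) (B ∩ (U.image st ∪ L))) A
      fun B hB => by rw [psiAt_eq, key B hB],
    ex_inter r hsub (fun C => psiL τ (linkPairs C v)), ex_union r hdis, ex_image r hinj]
  -- the two stages
  have hstep : ∀ S ⊆ U, ex r L (fun X => psiL τ (linkPairs (S.image st ∪ X) v))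
      ≤ r * psiL (τ - δ / 5) (L.filter (· ⊆ S)) + 1440 * S.card / δ := by
    intro S hS
    have e : ∀ X ⊆ L, linkPairs (S.image st ∪ X) v = X ∩ L.filter (· ⊆ S) := by
      intro X hX
      ext f
      simp only [linkPairs_mem, mem_inter, mem_filter, mem_union]
      constructor
      · rintro ⟨h1, h2, h3, h4⟩
        have hfX : f ∈ X := h3.resolve_left fun h => by
          obtain ⟨u, -, rfl⟩ := mem_image.1 h
          exact h2 (by simp [st])
        refine ⟨hfX, hX hfX, fun u hu => ?_⟩
        rcases h4 u hu with h | h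
        · obtain ⟨w, hw, e⟩ := mem_image.1 h
          rwa [← hinj (hS hw) (subset_lverts (hX hfX) hu) e]
        · exact absurd (by simp) (linkPairs_mem.1 (hX h)).2.1
      · rintro ⟨hfX, hfL, hfS⟩
        obtain ⟨h1, h2, -, -⟩ := linkPairs_mem.1 hfL
        exact ⟨h1, h2, Or.inr hfX, fun u hu => Or.inl (mem_image_of_mem st (hfS hu))⟩
    rw [ex_congr L (g := fun X => psiL τ (X ∩ L.filter (· ⊆ S))) fun X hX => by rw [e X hX],
      ex_inter r (filter_subset _ _) (psiL τ)]
    refine (entries_bound (U := S) (fun f hf => hC f (mem_filter.1 hf).1)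
      (fun f hf => (mem_filter.1 hf).2) (a := δ / 5) (by linarith) (by linarith) hτ hr hr1).trans ?_
    rw [div_div_eq_mul_div]
    exact le_of_eq (by ring)
  refine (ex_mono U hr.le hr1 hstep).trans ?_
  rw [ex_add, ex_mul_left]
  simp only [div_eq_mul_inv, ex_mul_right, ex_mul_left]
  have hcard : ex r U (fun S => (S.card : ℝ)) = r * U.card := by
    rw [ex_congr (g := fun S => ∑ u ∈ U, ind S u) U fun S hS => by
      simp [ind, sum_ite_mem, inter_eq_right.2 hS], ex_sum, mul_comm r, ← nsmul_eq_mul, ← sum_const]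
    refine sum_congr rfl fun u hu => ?_
    simpa [ind] using ex_contains r (singleton_subset_iff.2 hu)
  rw [hcard]
  have hs := stars_bound hC (τ := τ - δ * 5⁻¹) (a := δ / 5) (by linarith)
    (by linarith) (by linarith) hr hr1
  rw [show τ - δ * 5⁻¹ - 4 * (δ / 5) = τ - δ by ring, ← hU, ← psiAt_eq, div_div_eq_mul_div] at hs
  have hs' := mul_le_mul_of_nonneg_left hs hr.le
  have hnn : 0 ≤ r * (U.card : ℝ) * δ⁻¹ := by positivity
  simp only [div_eq_mul_inv] at hs'
  linarith

theorem sum_lverts_le {A : Finset (Finset V)} (h2 : ∀ e ∈ A, e.card = 2) :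
    ∑ v, (lverts (linkPairs A v)).card ≤ 2 * A.card := by
  calc ∑ v, (lverts (linkPairs A v)).card ≤ ∑ v, (A.filter fun e => v ∈ e).card := by
        refine sum_le_sum fun v _ => card_le_card_of_injOn (fun u => {v, u}) (fun u hu => ?_) ?_
        · obtain ⟨f, hf, huf⟩ := mem_biUnion.1 hu
          exact mem_filter.2 ⟨(linkPairs_mem.1 hf).2.2.2 u huf, by simp⟩
        · intro u hu w _ e
          have h : u ∈ ({v, w} : Finset V) := by
            rw [← show ({v, u} : Finset V) = {v, w} from e]; simp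
          obtain ⟨f, hf, huf⟩ := mem_biUnion.1 (mem_coe.1 hu)
          have : u ≠ v := fun h => (linkPairs_mem.1 hf).2.1 (h ▸ huf)
          simpa [this] using h
    _ = ∑ e ∈ A, e.card := by
        simp only [card_filter]
        rw [sum_comm]
        exact sum_congr rfl fun e _ => by rw [← card_filter, filter_mem_eq_inter, univ_inter]
    _ = 2 * A.card := by rw [sum_congr rfl h2, sum_const, smul_eq_mul, mul_comm]

omit [DecidableEq V] [Fintype V] in
/-- **Thinning contracts the defect.** -/
theorem thin_bound : ThinBound := by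
  refine ⟨6000, by norm_num, fun V _ _ A h2 τ δ r hδ hδτ hτ hr hr2 => ?_⟩
  rcases hr.eq_or_lt with rfl | hr0
  · have h0 : ∀ v : V, psiAt τ (∅ : Finset (Finset V)) v = 0 := fun v => by
      have : linkPairs (∅ : Finset (Finset V)) v = ∅ :=
        eq_empty_of_forall_notMem fun f hf => by simp [linkPairs_mem] at hf
      rw [psiAt_eq, this, psiL_empty]
    have : ex (0 : ℝ) A (psiSum τ) = 0 := by
      rw [ex, sum_eq_single ∅ (fun B _ hB => by simp [zero_pow, card_eq_zero, hB]) (by simp)]
      simp [psiSum, h0]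
    rw [this]; simp
  calc ex r A (psiSum τ) = ∑ v, ex r A (fun B => psiAt τ B v) := ex_sum A univ fun v B => psiAt τ B v
    _ ≤ ∑ v, (r ^ 3 * psiAt (τ - δ) A v
        + 3000 * r * (lverts (linkPairs A v)).card / δ) :=
      sum_le_sum fun v _ => link_bound A v hδ hδτ hτ hr0 (by linarith)
    _ = r ^ 3 * psiSum (τ - δ) A
        + 3000 * r * ((∑ v, (lverts (linkPairs A v)).card : ℕ) : ℝ) / δ := by
      rw [sum_add_distrib, psiSum, Nat.cast_sum]; simp only [mul_sum, sum_div]
    _ ≤ _ := by
      refine add_le_add le_rfl ?_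
      rw [show (6000 : ℝ) * r * A.card / δ = 3000 * r * ((2 * A.card : ℕ) : ℝ) / δ by push_cast; ring]
      gcongr
      exact_mod_cast sum_lverts_le h2

end Vale.Agent.P046.Gap
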