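import Vale.Agent.P046.Gap.Thin.Form

/-!
P046, exact order: thinning the pairs of a link.
-/

namespace Vale.Agent.P046.Gap

open Finset

variable {V : Type} [DecidableEq V]

theorem lipschitz_pterm {τ : ℝ} (h0 : 0 ≤ τ) (h1 : τ ≤ 1 / 4) {x y x' y' : ℝ} (hx : |x| ≤ 4)
    (hy : |y| ≤ 4) (hx' : |x'| ≤ 4) (hy' : |y'| ≤ 4) :
    |(x * y + τ * (x ^ 2 + y ^ 2)) - (x' * y' + τ * (x' ^ 2 + y' ^ 2))|
      ≤ 6 * (|x - x'| + |y - y'|) := by
  have e : (x * y + τ * (x ^ 2 + y ^ 2)) - (x' * y' + τ * (x' ^ 2 + y' ^ 2))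
      = (x - x') * (y + τ * (x + x')) + (y - y') * (x' + τ * (y + y')) := by ring
  have h8 : ∀ a b : ℝ, |a| ≤ 4 → |b| ≤ 4 → |τ * (a + b)| ≤ 2 := fun a b ha hb => by
    rw [abs_mul, abs_of_nonneg h0]
    calc τ * |a + b| ≤ 1 / 4 * 8 := mul_le_mul h1
          ((abs_add_le a b).trans (by linarith)) (abs_nonneg _) (by norm_num)
      _ = 2 := by norm_num
  have p : |y + τ * (x + x')| ≤ 6 := (abs_add_le _ _).trans (by linarith [h8 x x' hx hx'])
  have q : |x' + τ * (y + y')| ≤ 6 := (abs_add_le _ _).trans (by linarith [h8 y y' hy hy'])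
  rw [e]
  refine (abs_add_le _ _).trans ?_
  rw [abs_mul, abs_mul]
  nlinarith [mul_le_mul_of_nonneg_left p (abs_nonneg (x - x')),
    mul_le_mul_of_nonneg_left q (abs_nonneg (y - y'))]

/-- **The pair stage.** -/
theorem entries_bound {L : Finset (Finset V)} {U : Finset V} (hL : ∀ f ∈ L, f.card = 2)
    (hU : ∀ f ∈ L, f ⊆ U) {τ a r : ℝ} (ha : 0 < a) (hτ0 : 0 ≤ τ) (hτ : τ ≤ 1 / 4) (hr : 0 < r)
    (hr1 : r ≤ 1) :
    ex r L (fun X => psiL τ X) ≤ r * psiL (τ - a) L + 288 * U.card / a := by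
  rcases L.eq_empty_or_nonempty with rfl | ⟨f₀, hf₀⟩
  · rw [ex_empty, psiL_empty]
    have := psiL_nonneg (τ - a) (∅ : Finset (Finset V))
    positivity
  obtain ⟨u₀, -⟩ : f₀.Nonempty := card_pos.1 (by rw [hL f₀ hf₀]; norm_num)
  haveI : Nonempty V := ⟨u₀⟩
  have henum : ∀ f, ∃ a b : V, f ∈ L → a ≠ b ∧ f = {a, b} := fun f => by
    by_cases hf : f ∈ L
    · obtain ⟨x, y, hxy, e⟩ := card_eq_two.1 (hL f hf)
      exact ⟨x, y, fun _ => ⟨hxy, e⟩⟩
    · exact ⟨u₀, u₀, fun h => absurd h hf⟩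
  choose pa pb hp using henum
  set Up := lverts L with hUp
  have hUpU : Up ⊆ U := biUnion_subset.2 fun f hf => hU f hf
  let ψ : Finset V → box V → ℝ := fun f θ => -pterm τ θ.1 f
  let G : box V → ℝ := fun θ => -(r * a * ∑ u ∈ Up, (ldeg L u : ℝ) * θ.1 u ^ 2)
  have hz : ∀ (θ : box V) u, |θ.1 u| ≤ 4 := fun θ u => abs_le_of_mem θ.2 u
  have hsq : ∀ u, IsBd fun θ : box V => θ.1 u ^ 2 := fun u => ⟨16, fun θ => by
    show |θ.1 u ^ 2| ≤ 16
    rw [abs_of_nonneg (sq_nonneg _), ← sq_abs]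
    nlinarith [hz θ u, abs_nonneg (θ.1 u)]⟩
  have hG : IsBd G := by
    have := (isBd_sum (s := Up) fun u _ => (hsq u).mul_left (ldeg L u)).mul_left (-(r * a))
    simpa [G, neg_mul] using this
  have hlip : ∀ f ∈ L, ∀ θ θ' : box V, |ψ f θ - ψ f θ'|
      ≤ 6 * (|θ.1 (pa f) - θ'.1 (pa f)| + |θ.1 (pb f) - θ'.1 (pb f)|) := by
    intro f hf θ θ'
    obtain ⟨hab, e⟩ := hp f hf
    simp only [ψ, sq_sum_pair hab e]
    rw [← neg_sub_neg, neg_neg, neg_neg, abs_sub_comm]
    exact lipschitz_pterm hτ0 hτ (hz θ _) (hz θ _) (hz θ' _) (hz θ' _)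
  have hψ : ∀ f ∈ L, IsBd (ψ f) := fun f hf => ⟨6 * (4 + 4), fun θ => by
    obtain ⟨hab, e⟩ := hp f hf
    simp only [ψ, abs_neg, sq_sum_pair hab e]
    have h := lipschitz_pterm (x' := 0) (y' := 0) hτ0 hτ (hz θ (pa f)) (hz θ (pb f))
      (by norm_num) (by norm_num)
    simp only [mul_zero, zero_mul, ne_eq, OfNat.ofNat_ne_zero, not_false_eq_true, zero_pow,
      add_zero, sub_zero] at h
    linarith [hz θ (pa f), hz θ (pb f)]⟩
  -- split off the mean
  have h1 : ex r L (fun X => psiL τ X)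
      ≤ r * psiL (τ - a) L + ex r L (fun X => ⨆ θ, (∑ f ∈ L, (ind X f - r) * ψ f θ) + G θ) := by
    rw [← ex_const L (r * psiL (τ - a) L), ← ex_add]
    refine ex_mono _ hr.le hr1 fun X hX => ?_
    obtain ⟨z, hzb, e⟩ := psiL_mem τ X
    have hb := (isBd_signed (fun f => ind X f - r) hψ hG).le_sup ⟨z, hzb⟩
    have eX : qL τ X z = (∑ f ∈ L, (ind X f - r) * ψ f ⟨z, hzb⟩) + r * qL τ L z := by
      simp only [qL, ψ, sub_mul, sum_sub_distrib, ← mul_sum, sum_neg_distrib, mul_neg]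
      have : ∑ f ∈ L, ind X f * pterm τ z f = ∑ f ∈ X, pterm τ z f := by
        simp only [ind, ite_mul, one_mul, zero_mul, sum_ite_mem, inter_eq_right.2 hX]
      rw [this]; ring
    rw [e, eX]
    have := mul_le_mul_of_nonneg_left (qL_le_psiL (τ - a) L hzb) hr.le
    have e2 : r * qL τ L z = r * qL (τ - a) L z + G ⟨z, hzb⟩ := by
      rw [qL_shift τ a L z]; simp only [G, Up]; ring
    linarith
  refine h1.trans (add_le_add le_rfl ?_)
  refine (symm_sup hr.le hr1 L ψ G hψ hG).trans ?_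
  -- linearise
  let R : Finset (Finset V) → Finset (Finset V) → Finset (Finset V) → V → ℝ := fun B P Q u =>
    12 * ∑ f ∈ L, sgn P f * (if pa f = u then ind B f else 0)
      + 12 * ∑ f ∈ L, sgn Q f * (if pb f = u then ind B f else 0)
  have h2 : ∀ B, radSup L (fun f θ => ind B f * ψ f θ) (fun θ => G θ / 2)
      ≤ ex (1 / 2) L fun P => ex (1 / 2) L fun Q =>
          ∑ u ∈ Up, R B P Q u ^ 2 / (2 * (r * a * ldeg L u)) := by
    intro B
    refine (contract_sup (by norm_num : (0 : ℝ) ≤ 6) L _ (fun f θ => ind B f * θ.1 (pa f))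
      (fun f θ => ind B f * θ.1 (pb f)) _ (by simpa only [div_eq_inv_mul] using hG.mul_left _)
      (fun f _ => IsBd.mul_left ⟨4, fun θ => hz θ _⟩ _)
      (fun f _ => IsBd.mul_left ⟨4, fun θ => hz θ _⟩ _) fun f hf θ θ' => ?_).trans ?_
    · simp only [ind]
      split_ifs
      · simpa only [one_mul] using hlip f hf θ θ'
      · simp
    refine ex_mono _ (by norm_num) (by norm_num) fun P _ =>
      ex_mono _ (by norm_num) (by norm_num) fun Q _ => ciSup_le fun θ => ?_
    have hlin : ∀ (S : Finset (Finset V)) (p : Finset V → V), (∀ f ∈ L, p f ∈ f) →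
        ∑ f ∈ L, sgn S f * (2 * 6 * (ind B f * θ.1 (p f)))
          = ∑ u ∈ Up, (12 * ∑ f ∈ L, sgn S f * (if p f = u then ind B f else 0)) * θ.1 u := by
      intro S p hp'
      simp only [mul_sum, sum_mul]
      rw [sum_comm (s := Up)]
      refine sum_congr rfl fun f hf => ?_
      rw [sum_eq_single (p f) (fun u _ hne => by simp [Ne.symm hne])
        fun hc => absurd (subset_lverts hf (hp' f hf)) hc]
      rw [if_pos rfl]; ring
    have ha' : ∀ f ∈ L, pa f ∈ f := fun f hf => by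
      have h : pa f ∈ ({pa f, pb f} : Finset V) := mem_insert_self _ _
      rwa [← (hp f hf).2] at h
    have hb' : ∀ f ∈ L, pb f ∈ f := fun f hf => by
      have h : pb f ∈ ({pa f, pb f} : Finset V) := by simp
      rwa [← (hp f hf).2] at h
    dsimp only
    rw [hlin Q pb hb', hlin P pa ha']
    simp only [G, mul_sum, ← sum_add_distrib, neg_div, ← sum_div, ← sub_eq_add_neg, sum_div,
      ← add_assoc, ← sum_sub_distrib]
    refine le_trans (le_of_eq (sum_congr rfl fun u _ => ?_))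
      ((lin_quad Up (R B P Q) (fun u => r * a * ldeg L u / 2) θ.1 fun u hu => ?_).trans
        (le_of_eq (sum_congr rfl fun u _ => ?_)))
    · simp only [R, mul_sum]; ring
    · have : (1 : ℝ) ≤ ldeg L u := by exact_mod_cast ldeg_pos hu
      positivity
    · ring
  have h3 : ∀ u ∈ Up, ex r L (fun B => ex (1 / 2) L fun P => ex (1 / 2) L fun Q =>
      R B P Q u ^ 2) ≤ 288 * (r * ldeg L u) := by
    intro u _
    refine le_trans (b := ex r L fun B => 288 * ∑ f ∈ L,
        ((if pa f = u then ind B f else 0) ^ 2 + (if pb f = u then ind B f else 0) ^ 2))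
      (ex_mono _ hr.le hr1 fun B _ => ?_) ?_
    · refine le_trans (ex_mono _ (by norm_num) (by norm_num) fun P _ =>
        ex_mono _ (by norm_num) (by norm_num) fun Q _ => add_sq_le) ?_
      simp only [mul_pow, ex_mul_left, ex_add, ex_const, rad_sq, sum_add_distrib]
      exact le_of_eq (by ring)
    · rw [ex_mul_left, ex_sum]
      refine mul_le_mul_of_nonneg_left ?_ (by norm_num)
      have hd : (r * ldeg L u : ℝ) = ∑ f ∈ L, if u ∈ f then r else 0 := by
        rw [← sum_filter, sum_const, nsmul_eq_mul, ldeg, mul_comm]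
      rw [hd]
      refine sum_le_sum fun f hf => ?_
      have hi : ex r L (fun B => ind B f) = r := by
        have h := ex_contains r (singleton_subset_iff.2 hf)
        simpa [ind] using h
      obtain ⟨hab, e⟩ := hp f hf
      have hm : u ∈ f ↔ u = pa f ∨ u = pb f := by
        conv_lhs => rw [e]
        simp
      have hb : ∀ B : Finset (Finset V), ind B f ^ 2 = ind B f := fun B => by
        simp only [ind]; split_ifs <;> norm_num
      by_cases ca : pa f = u
      · simp only [if_pos ca, if_neg (show ¬ pb f = u from fun h => hab (ca.trans h.symm)),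
          if_pos (hm.2 (Or.inl ca.symm)), hb, zero_pow two_ne_zero, add_zero, hi, le_refl]
      by_cases cb : pb f = u
      · simp only [if_pos cb, if_neg ca, if_pos (hm.2 (Or.inr cb.symm)), hb,
          zero_pow two_ne_zero, zero_add, hi, le_refl]
      · simp only [if_neg ca, if_neg cb, zero_pow two_ne_zero, add_zero, ex_const]
        split_ifs <;> linarith
  refine (mul_le_mul_of_nonneg_left (ex_mono _ hr.le hr1 fun B _ => h2 B) two_pos.le).trans ?_
  simp only [ex_sum, div_eq_mul_inv, ex_mul_right]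
  calc 2 * ∑ u ∈ Up, (ex r L fun B => ex (1 / 2) L fun P => ex (1 / 2) L fun Q => R B P Q u ^ 2)
        * (2 * (r * a * ldeg L u))⁻¹
      ≤ 2 * ∑ _u ∈ Up, 144 / a := by
        refine mul_le_mul_of_nonneg_left (sum_le_sum fun u hu => ?_) two_pos.le
        have hd : (0 : ℝ) < ldeg L u := by exact_mod_cast ldeg_pos hu
        refine (mul_le_mul_of_nonneg_right (h3 u hu) (by positivity)).trans (le_of_eq ?_)
        field_simp; ring
    _ ≤ 288 * U.card * a⁻¹ := by
        rw [sum_const, nsmul_eq_mul, show 2 * ((Up.card : ℝ) * (144 / a)) = 288 * Up.card * a⁻¹ by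
          field_simp; ring]
        gcongr

end Vale.Agent.P046.Gap
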