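import Mathlib.Analysis.Matrix.Spectrum
import Mathlib.Tactic

/-!
P046, exact order: a symmetric form is a difference of two positive semidefinite forms whose
columns are no longer than its own.
-/

namespace Vale.Agent.P046.Gap

open Finset Matrix

variable {ι : Type} [Fintype ι] [DecidableEq ι]

/-- The bilinear form of `N`. -/
def bil (N : ι → ι → ℝ) (x y : ι → ℝ) : ℝ := ∑ u, ∑ w, x u * N u w * y w

theorem exists_split (M : ι → ι → ℝ) (hM : ∀ u w, M u w = M w u) :
    ∃ P N : ι → ι → ℝ, (∀ u w, P u w = P w u) ∧ (∀ u w, N u w = N w u) ∧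
      (∀ x, 0 ≤ bil P x x) ∧ (∀ x, 0 ≤ bil N x x) ∧ (∀ u w, N u w - P u w = M u w) ∧
      (∀ w, ∑ u, P u w ^ 2 ≤ ∑ u, M u w ^ 2) ∧ ∀ w, ∑ u, N u w ^ 2 ≤ ∑ u, M u w ^ 2 := by
  have hH : (Matrix.of M).IsHermitian := by
    ext u w; simp [conjTranspose, hM u w]
  set U : Matrix ι ι ℝ := (hH.eigenvectorUnitary : Matrix ι ι ℝ) with hU
  set l := hH.eigenvalues with hl
  have hortho : ∀ i j, ∑ u, U u i * U u j = if i = j then 1 else 0 := by
    intro i j
    have h : star U * U = 1 := Unitary.coe_star_mul_self hH.eigenvectorUnitary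
    have := congrFun (congrFun h i) j
    simpa [Matrix.mul_apply, Matrix.one_apply, star_eq_conjTranspose] using this
  have hspec : ∀ u w, M u w = ∑ i, U u i * l i * U w i := by
    intro u w
    have h := congrFun (congrFun hH.spectral_theorem u) w
    simpa [Matrix.mul_apply, Matrix.diagonal, Unitary.conjStarAlgAut_apply, star_eq_conjTranspose,
      Finset.sum_ite_eq', hU, hl] using h
  let F : (ι → ℝ) → ι → ι → ℝ := fun m u w => ∑ i, U u i * m i * U w i
  have hsym : ∀ m u w, F m u w = F m w u := fun m u w =>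
    sum_congr rfl fun i _ => by ring
  have hpsd : ∀ m, (∀ i, 0 ≤ m i) → ∀ x, 0 ≤ bil (F m) x x := by
    intro m hm x
    have : bil (F m) x x = ∑ i, m i * (∑ u, x u * U u i) ^ 2 := by
      simp only [bil, F, sq, Finset.mul_sum, Finset.sum_mul]
      rw [Finset.sum_congr rfl fun u _ => Finset.sum_comm, Finset.sum_comm]
      refine Finset.sum_congr rfl fun i _ => ?_
      rw [Finset.sum_comm]
      exact Finset.sum_congr rfl fun u _ => Finset.sum_congr rfl fun w _ => by ring
    rw [this]
    exact sum_nonneg fun i _ => mul_nonneg (hm i) (sq_nonneg _)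
  have hcol : ∀ m w, ∑ u, F m u w ^ 2 = ∑ i, m i ^ 2 * U w i ^ 2 := by
    intro m w
    have : ∑ u, F m u w ^ 2
        = ∑ i, ∑ j, m i * U w i * (m j * U w j) * ∑ u, U u i * U u j := by
      simp only [F, sq, Finset.mul_sum, Finset.sum_mul]
      rw [Finset.sum_comm]
      refine Finset.sum_congr rfl fun i _ => ?_
      rw [Finset.sum_comm]
      exact Finset.sum_congr rfl fun j _ => Finset.sum_congr rfl fun u _ => by ring
    rw [this]
    refine sum_congr rfl fun i _ => ?_
    simp only [hortho, mul_ite, mul_one, mul_zero, sum_ite_eq, mem_univ, if_true]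
    ring
  have hMF : ∀ u w, M u w = F l u w := hspec
  refine ⟨F fun i => max (-l i) 0, F fun i => max (l i) 0, hsym _, hsym _,
    hpsd _ fun i => le_max_right _ _, hpsd _ fun i => le_max_right _ _, ?_, ?_, ?_⟩
  · intro u w
    rw [hMF, ← sum_sub_distrib]
    refine sum_congr rfl fun i _ => ?_
    show U u i * max (l i) 0 * U w i - U u i * max (-l i) 0 * U w i = _
    rw [← sub_mul, ← mul_sub]
    congr 2
    rcases max_cases (l i) 0 with ⟨a, b⟩ | ⟨a, b⟩ <;>
      rcases max_cases (-l i) 0 with ⟨c, d⟩ | ⟨c, d⟩ <;> rw [a, c] <;> linarith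
  all_goals
    intro w
    simp only [hMF, hcol]
    refine sum_le_sum fun i _ => mul_le_mul_of_nonneg_right ?_ (sq_nonneg _)
    rw [← sq_abs (l i)]
    refine pow_le_pow_left₀ (le_max_right _ _) (max_le ?_ (abs_nonneg _)) 2
    first | exact neg_le_abs _ | exact le_abs_self _

end Vale.Agent.P046.Gap
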