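import Vale.Agent.P046.Gap.Rademacher
import Vale.Agent.P046.Gap.Thin.Split

/-!
P046, exact order: the link form on a set of pairs.
-/

namespace Vale.Agent.P046.Gap

open Finset

variable {V : Type}

/-- The term of one pair: `x y + τ (x² + y²)`. -/
noncomputable def pterm (τ : ℝ) (z : V → ℝ) (f : Finset V) : ℝ :=
  τ * ∑ u ∈ f, z u ^ 2 + ((∑ u ∈ f, z u) ^ 2 - ∑ u ∈ f, z u ^ 2) / 2

/-- Minus the form of a set of pairs. -/
noncomputable def qL (τ : ℝ) (L : Finset (Finset V)) (z : V → ℝ) : ℝ := -∑ f ∈ L, pterm τ z f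

theorem exists_optL (τ : ℝ) (L : Finset (Finset V)) :
    ∃ z ∈ box V, IsMaxOn (qL τ L) (box V) z := by
  refine isCompact_Icc.exists_isMaxOn ⟨0, fun _ => by simp, fun _ => by simp⟩ ?_
  unfold qL pterm
  fun_prop

/-- The largest value of minus the form. -/
noncomputable def psiL (τ : ℝ) (L : Finset (Finset V)) : ℝ := qL τ L (exists_optL τ L).choose

theorem qL_le_psiL (τ : ℝ) (L : Finset (Finset V)) {z : V → ℝ} (hz : z ∈ box V) :
    qL τ L z ≤ psiL τ L :=
  (exists_optL τ L).choose_spec.2 hz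

theorem psiL_mem (τ : ℝ) (L : Finset (Finset V)) :
    ∃ z ∈ box V, psiL τ L = qL τ L z :=
  ⟨_, (exists_optL τ L).choose_spec.1, rfl⟩

theorem psiL_nonneg (τ : ℝ) (L : Finset (Finset V)) : 0 ≤ psiL τ L := by
  have h := qL_le_psiL τ L (z := 0) ⟨fun _ => by simp, fun _ => by simp⟩
  simpa [qL, pterm] using h

theorem psiL_empty (τ : ℝ) : psiL τ (∅ : Finset (Finset V)) = 0 := by simp [psiL, qL]

theorem box_iff {z : V → ℝ} : z ∈ box V ↔ ∀ u, |z u| ≤ 4 := by
  simp only [box, Set.mem_Icc, Pi.le_def, abs_le, ← forall_and]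

theorem abs_le_of_mem {z : V → ℝ} (hz : z ∈ box V) (u : V) : |z u| ≤ 4 := box_iff.1 hz u

instance : Nonempty (box V) := ⟨⟨0, box_iff.2 fun _ => by simp⟩⟩

theorem sq_sum_pair [DecidableEq V] {f : Finset V} {a b : V} (hab : a ≠ b) (hf : f = {a, b})
    (τ : ℝ) (z : V → ℝ) : pterm τ z f = z a * z b + τ * (z a ^ 2 + z b ^ 2) := by
  subst hf
  rw [pterm, sum_pair hab, sum_pair hab]
  ring

theorem pterm_add (τ a : ℝ) (z : V → ℝ) (f : Finset V) :
    pterm τ z f = pterm (τ - a) z f + a * ∑ u ∈ f, z u ^ 2 := by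
  unfold pterm; ring

section Degrees

variable [DecidableEq V]

/-- The degree of a vertex in a set of pairs. -/
def ldeg (L : Finset (Finset V)) (u : V) : ℕ := (L.filter fun f => u ∈ f).card

/-- The vertices of a set of pairs. -/
def lverts (L : Finset (Finset V)) : Finset V := L.biUnion id

theorem sum_incidence (L : Finset (Finset V)) {U : Finset V} (hU : ∀ f ∈ L, f ⊆ U) (F : V → ℝ) :
    ∑ f ∈ L, ∑ u ∈ f, F u = ∑ u ∈ U, (ldeg L u : ℝ) * F u := by
  rw [sum_comm' (t' := U) (s' := fun u => L.filter fun f => u ∈ f)]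
  · exact sum_congr rfl fun u _ => by rw [sum_const, nsmul_eq_mul]; rfl
  · intro f u
    simp only [mem_filter]
    exact ⟨fun ⟨h1, h2⟩ => ⟨⟨h1, h2⟩, hU f h1 h2⟩, fun h => h.1⟩

theorem subset_lverts {L : Finset (Finset V)} {f : Finset V} (hf : f ∈ L) : f ⊆ lverts L :=
  fun _ hu => mem_biUnion.2 ⟨f, hf, hu⟩

theorem ldeg_pos {L : Finset (Finset V)} {u : V} (hu : u ∈ lverts L) : 1 ≤ ldeg L u := by
  obtain ⟨f, hf, huf⟩ := mem_biUnion.1 hu
  exact card_pos.2 ⟨f, mem_filter.2 ⟨hf, huf⟩⟩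

theorem qL_shift (τ a : ℝ) (L : Finset (Finset V)) (z : V → ℝ) :
    qL τ L z = qL (τ - a) L z - a * ∑ u ∈ lverts L, (ldeg L u : ℝ) * z u ^ 2 := by
  rw [← sum_incidence L (fun f hf => subset_lverts hf) (fun u => z u ^ 2), qL, qL, mul_sum,
    sum_congr rfl fun f _ => pterm_add τ a z f, sum_add_distrib]
  ring

theorem psiL_anti {τ τ' : ℝ} (h : τ' ≤ τ) (L : Finset (Finset V)) : psiL τ L ≤ psiL τ' L := by
  obtain ⟨z, hz, e⟩ := psiL_mem τ L
  rw [e, qL_shift τ (τ - τ') L z, sub_sub_cancel]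
  have : 0 ≤ (τ - τ') * ∑ u ∈ lverts L, (ldeg L u : ℝ) * z u ^ 2 :=
    mul_nonneg (by linarith) (sum_nonneg fun u _ => by positivity)
  linarith [qL_le_psiL τ' L hz]

end Degrees

end Vale.Agent.P046.Gap
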