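import Vale.Agent.P046.Gap.Thin.Form

/-!
P046, exact order: linearisation of the link form at the maximiser of a concave surrogate.
-/

namespace Vale.Agent.P046.Gap

open Finset

variable {V : Type} [Fintype V]

theorem bil_sub_left (N : V → V → ℝ) (x x' y : V → ℝ) :
    bil N (fun u => x u - x' u) y = bil N x y - bil N x' y := by
  simp only [bil, ← sum_sub_distrib]
  exact sum_congr rfl fun u _ => sum_congr rfl fun w _ => by ring

theorem bil_comm {N : V → V → ℝ} (hN : ∀ u w, N u w = N w u) (x y : V → ℝ) :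
    bil N x y = bil N y x := by
  simp only [bil]
  rw [sum_comm]
  exact sum_congr rfl fun u _ => sum_congr rfl fun w _ => by rw [hN]; ring

theorem bil_comb {N : V → V → ℝ} (hN : ∀ u w, N u w = N w u) (x y : V → ℝ) (t : ℝ) :
    bil N (fun u => x u + t * y u) (fun u => x u + t * y u)
      = bil N x x + 2 * t * bil N x y + t ^ 2 * bil N y y := by
  have h : bil N (fun u => x u + t * y u) (fun u => x u + t * y u)
      = bil N x x + t * bil N x y + t * bil N y x + t ^ 2 * bil N y y := by
    simp only [bil, mul_sum, ← sum_add_distrib]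
    exact sum_congr rfl fun u _ => sum_congr rfl fun w _ => by ring
  rw [h, bil_comm hN y x]; ring

theorem bil_smul (N : V → V → ℝ) (x y : V → ℝ) (t : ℝ) :
    bil N x (fun u => t * y u) = t * bil N x y := by
  simp only [bil, mul_sum]
  exact sum_congr rfl fun u _ => sum_congr rfl fun w _ => by ring

theorem bil_add_right (N : V → V → ℝ) (x y y' : V → ℝ) :
    bil N x (fun u => y u + y' u) = bil N x y + bil N x y' := by
  simp only [bil, ← sum_add_distrib]
  exact sum_congr rfl fun u _ => sum_congr rfl fun w _ => by ring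

/-- For a positive form, the square is above each of its tangents. -/
theorem bil_tangent {N : V → V → ℝ} (hN : ∀ u w, N u w = N w u) (hpos : ∀ x, 0 ≤ bil N x x)
    (y b : V → ℝ) : 2 * bil N y b - bil N b b ≤ bil N y y := by
  have h := hpos fun u => y u + (-1) * b u
  rw [bil_comb hN] at h
  linarith

theorem slope_nonpos {a b : ℝ} (h : ∀ t : ℝ, 0 < t → t ≤ 1 → t * a + t ^ 2 * b ≤ 0) : a ≤ 0 := by
  by_contra hc
  have ha : 0 < a := not_le.1 hc
  have hd : 0 < a + 2 * |b| := by positivity
  set t := a / (a + 2 * |b|) with ht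
  have ht0 : 0 < t := by positivity
  have ht1 : t ≤ 1 := by rw [ht, div_le_one hd]; linarith [abs_nonneg b]
  have h' := h t ht0 ht1
  have h2 : a + t * b ≤ 0 := by
    by_contra hc'
    nlinarith [mul_pos ht0 (not_le.1 hc')]
  have h3 : t * (a + 2 * |b|) = a := by rw [ht]; field_simp
  nlinarith [neg_abs_le b, mul_nonneg ht0.le (abs_nonneg b), mul_pos ht0 ha]

/-- The gradient of the linearised problem. -/
noncomputable def grad (P N : V → V → ℝ) (x b : V → ℝ) (u : V) : ℝ :=
  ∑ w, P u w * x w - ∑ w, N u w * b w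

theorem bil_eq_sum (N : V → V → ℝ) (x y : V → ℝ) :
    bil N x y = ∑ u, x u * ∑ w, N u w * y w := by
  simp only [bil, mul_sum]
  exact sum_congr rfl fun u _ => sum_congr rfl fun w _ => by ring

variable [DecidableEq V]

/-- The concave surrogate of the star stage. -/
noncomputable def surr (P N : V → V → ℝ) (r c : ℝ) (d : V → ℝ) (U : Finset V) (x z : V → ℝ) : ℝ :=
  r * bil P z x - r ^ 2 / 2 * bil N z z - r ^ 2 * c * ∑ u ∈ U, d u * z u ^ 2

/-- At the maximiser of the surrogate, the linearised value is at most the surrogate. -/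
theorem surr_saddle {P N : V → V → ℝ} (hNsym : ∀ u w, N u w = N w u)
    {r c : ℝ} (hc : 0 ≤ c) {d : V → ℝ} (hd : ∀ u, 0 ≤ d u) {U : Finset V} {x z : V → ℝ}
    (hz : z ∈ box V) (hmax : IsMaxOn (surr P N r c d U x) (box V) z) (v : V → ℝ)
    (hv : ∀ u, |v u| ≤ 4) :
    1 / 2 * bil N (fun u => r * z u) (fun u => r * z u)
      + r * ∑ u ∈ U, (grad P N x (fun w => r * z w) u * v u - r * c * d u * v u ^ 2)
      + r * ∑ u ∈ univ \ U, grad P N x (fun w => r * z w) u * z u
      ≤ surr P N r c d U x z := by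
  let y : V → ℝ := fun u => if u ∈ U then v u else z u
  let Δ : V → ℝ := fun u => y u - z u
  have hy : ∀ u, |y u| ≤ 4 := fun u => by
    simp only [y]; split_ifs
    · exact hv u
    · exact abs_le_of_mem hz u
  have hsl : r * bil P Δ x - r ^ 2 * bil N z Δ - 2 * r ^ 2 * c * ∑ u ∈ U, d u * (z u * Δ u)
      ≤ 0 := by
    refine slope_nonpos (b := -(r ^ 2 / 2) * bil N Δ Δ - r ^ 2 * c * ∑ u ∈ U, d u * Δ u ^ 2)
      fun t ht0 ht1 => ?_
    have hin : (fun u => z u + t * Δ u) ∈ box V := box_iff.2 fun u => by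
      have h1 := abs_le.1 (abs_le_of_mem hz u)
      have h2 := abs_le.1 (hy u)
      simp only [Δ]
      rw [abs_le]
      constructor <;> nlinarith [mul_le_mul_of_nonneg_left h2.1 ht0.le,
        mul_le_mul_of_nonneg_left h2.2 ht0.le, mul_le_mul_of_nonneg_left h1.1 (sub_nonneg.2 ht1),
        mul_le_mul_of_nonneg_left h1.2 (sub_nonneg.2 ht1)]
    have h : surr P N r c d U x (fun u => z u + t * Δ u) ≤ surr P N r c d U x z := hmax hin
    have e1 : bil P (fun u => z u + t * Δ u) x = bil P z x + t * bil P Δ x := by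
      simp only [bil, mul_sum, ← sum_add_distrib]
      exact sum_congr rfl fun u _ => sum_congr rfl fun w _ => by ring
    have e2 : ∑ u ∈ U, d u * (z u + t * Δ u) ^ 2 = ∑ u ∈ U, d u * z u ^ 2
        + 2 * t * ∑ u ∈ U, d u * (z u * Δ u) + t ^ 2 * ∑ u ∈ U, d u * Δ u ^ 2 := by
      simp only [mul_sum, ← sum_add_distrib]
      exact sum_congr rfl fun u _ => by ring
    simp only [surr, e1, e2, bil_comb hNsym] at h
    linarith
  -- the linear part
  set g := grad P N x (fun w => r * z w) with hg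
  have hgy : ∀ k : V → ℝ, ∑ u, g u * k u = bil P k x - r * bil N z k := by
    intro k
    rw [bil_eq_sum, bil_comm hNsym, bil_eq_sum, mul_sum, ← sum_sub_distrib]
    refine sum_congr rfl fun u _ => ?_
    simp only [hg, grad, sub_mul, mul_sum, sum_mul]
    congr 1 <;> exact sum_congr rfl fun w _ => by ring
  have hsplit : ∑ u ∈ U, g u * v u + ∑ u ∈ univ \ U, g u * z u = ∑ u, g u * y u := by
    rw [← sum_sdiff (subset_univ U), add_comm]
    refine congrArg₂ (· + ·) (sum_congr rfl fun u hu => ?_) (sum_congr rfl fun u hu => ?_)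
    · simp [y, (mem_sdiff.1 hu).2]
    · simp [y, hu]
  have e3 : bil P Δ x = bil P y x - bil P z x := bil_sub_left _ _ _ _
  have e4 : bil N z Δ = bil N z y - bil N z z := by
    rw [bil_comm hNsym, bil_sub_left, bil_comm hNsym y z]
  have e5 : bil N (fun u => r * z u) (fun u => r * z u) = r ^ 2 * bil N z z := by
    rw [bil_smul, bil_comm hNsym, bil_smul]; ring
  have e6 : ∑ u ∈ U, d u * v u ^ 2 = ∑ u ∈ U, d u * z u ^ 2
      + 2 * ∑ u ∈ U, d u * (z u * Δ u) + ∑ u ∈ U, d u * Δ u ^ 2 := by
    simp only [mul_sum, ← sum_add_distrib]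
    refine sum_congr rfl fun u hu => ?_
    simp only [Δ, y, if_pos hu]; ring
  have hsum : ∑ u ∈ U, (g u * v u - r * c * d u * v u ^ 2)
      = ∑ u ∈ U, g u * v u - r * c * ∑ u ∈ U, d u * v u ^ 2 := by
    rw [sum_sub_distrib, mul_sum]
    simp only [mul_assoc]
  have hpos : 0 ≤ r ^ 2 * c * ∑ u ∈ U, d u * Δ u ^ 2 :=
    mul_nonneg (by positivity) (sum_nonneg fun u _ => mul_nonneg (hd u) (sq_nonneg _))
  have hgy' := congrArg (r * ·) (hsplit.trans (hgy y))
  simp only [mul_add, mul_sub] at hgy'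
  rw [e3, e4] at hsl
  rw [hsum, e5, e6]
  simp only [surr]
  linarith

end Vale.Agent.P046.Gap
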